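import Vale.Agent.Lib.P031.Defs

namespace Vale.Agent.Lib.P031

open Filter Topology

theorem IsTotient.two_mul {v : ℕ} (hv : IsTotient v) : IsTotient (2 * v) := by
  obtain ⟨n, hn, rfl⟩ := hv
  rcases Nat.even_or_odd n with h | h
  · exact ⟨2 * n, by omega, Nat.totient_two_mul_of_even h⟩
  · refine ⟨2 * (2 * n), by omega, ?_⟩
    have h2 : Even (2 * n) := even_two_mul n
    rw [Nat.totient_two_mul_of_even h2, Nat.totient_two_mul_of_odd h]

theorem IsTotient.two_mul_three_pow_mul {v : ℕ} (hv : IsTotient v) (b : ℕ) :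
    IsTotient (2 * 3 ^ b * v) := by
  obtain ⟨n, hn, rfl⟩ := hv
  by_cases h3 : 3 ∣ n
  · have key : ∀ b : ℕ, Nat.totient (3 ^ b * n) = 3 ^ b * Nat.totient n := by
      intro b
      induction b with
      | zero => simp
      | succ k ih =>
        have hd : 3 ∣ 3 ^ k * n := Dvd.dvd.mul_left h3 _
        have : 3 ^ (k + 1) * n = 3 * (3 ^ k * n) := by ring
        rw [this, Nat.totient_mul_of_prime_of_dvd Nat.prime_three hd, ih]
        ring
    have hm : IsTotient (3 ^ b * Nat.totient n) :=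
      ⟨3 ^ b * n, Nat.mul_pos (by positivity) hn, key b⟩
    have := hm.two_mul
    have e : 2 * (3 ^ b * Nat.totient n) = 2 * 3 ^ b * Nat.totient n := by ring
    rwa [e] at this
  · refine ⟨3 ^ (b + 1) * n, Nat.mul_pos (by positivity) hn, ?_⟩
    have hc : Nat.Coprime (3 ^ (b + 1)) n := by
      apply Nat.Coprime.pow_left
      exact (Nat.Prime.coprime_iff_not_dvd Nat.prime_three).2 h3
    rw [Nat.totient_mul hc, Nat.totient_prime_pow_succ Nat.prime_three]
    have : (3 - 1 : ℕ) = 2 := rfl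
    rw [this]
    ring

/-- The set counted by `V x`. -/
def S (x : ℝ) : Set ℕ := {v : ℕ | IsTotient v ∧ (v : ℝ) ≤ x}

theorem V_eq (x : ℝ) : V x = (S x).ncard := rfl

theorem IsTotient.pos {v : ℕ} (hv : IsTotient v) : 1 ≤ v := by
  obtain ⟨n, hn, rfl⟩ := hv
  exact Nat.totient_pos.2 hn

theorem isTotient_one : IsTotient 1 := ⟨1, le_refl _, Nat.totient_one⟩

theorem S_finite (x : ℝ) : (S x).Finite := by
  apply (Set.finite_Icc 1 ⌊x⌋₊).subset
  intro v hv
  refine ⟨hv.1.pos, ?_⟩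
  have h1 : (0 : ℝ) ≤ v := Nat.cast_nonneg v
  exact Nat.le_floor hv.2

theorem S_mono {a b : ℝ} (h : a ≤ b) : S a ⊆ S b := fun _ hv => ⟨hv.1, hv.2.trans h⟩

theorem V_mono : Monotone V := fun _ _ h =>
  Set.ncard_le_ncard (S_mono h) (S_finite _)

theorem V_le (x : ℝ) (hx : 0 ≤ x) : (V x : ℝ) ≤ x := by
  have hsub : S x ⊆ Set.Icc 1 ⌊x⌋₊ := fun v hv => ⟨hv.1.pos, Nat.le_floor hv.2⟩
  have h1 : (S x).ncard ≤ (Set.Icc 1 ⌊x⌋₊).ncard := Set.ncard_le_ncard hsub (Set.finite_Icc _ _)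
  have h2 : (Set.Icc 1 ⌊x⌋₊).ncard = ⌊x⌋₊ := by
    rw [Set.ncard_eq_toFinset_card' ]
    simp
  have h3 : (V x : ℝ) ≤ (⌊x⌋₊ : ℝ) := by
    rw [V_eq]; exact_mod_cast (h2 ▸ h1)
  exact h3.trans (Nat.floor_le hx)

theorem V_pos {x : ℝ} (hx : 1 ≤ x) : 0 < V x := by
  rw [V_eq, Set.ncard_pos (S_finite x)]
  exact ⟨1, isTotient_one, by simpa using hx⟩

theorem V_ge_primeCounting (x : ℝ) : Nat.primeCounting ⌊x⌋₊ ≤ V x := by
  classical
  rcases le_or_gt 0 x with hx | hx
  · have hfin := S_finite x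
    rw [V_eq, Nat.primeCounting, Nat.primeCounting', Nat.count_eq_card_filter_range,
      ← Set.ncard_coe_finset]
    have hinj : Set.InjOn (fun p : ℕ => p - 1)
        (↑((Finset.range (⌊x⌋₊ + 1)).filter Nat.Prime) : Set ℕ) := by
      intro p hp q hq h
      simp only [Finset.coe_filter, Finset.mem_range, Set.mem_ofPred_eq] at hp hq
      have := hp.2.one_lt
      have := hq.2.one_lt
      simp only at h
      omega
    rw [← hinj.ncard_image]
    apply Set.ncard_le_ncard _ hfin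
    rintro v ⟨p, hp, rfl⟩
    simp only [Finset.coe_filter, Finset.mem_range, Set.mem_ofPred_eq] at hp
    refine ⟨⟨p, hp.2.one_lt.le, Nat.totient_prime hp.2⟩, ?_⟩
    have hp1 : p - 1 ≤ ⌊x⌋₊ := by omega
    calc ((p - 1 : ℕ) : ℝ) ≤ (⌊x⌋₊ : ℝ) := by exact_mod_cast hp1
      _ ≤ x := Nat.floor_le hx
  · have h0 : ⌊x⌋₊ = 0 := Nat.floor_of_nonpos hx.le
    simp [h0]

/-- Doubling injects `S b \ S a` into `S (2 b) \ S (2 a)`. -/
theorem V_sub_le_of_mul {m : ℕ} (hm : 1 ≤ m) (hclosed : ∀ v, IsTotient v → IsTotient (m * v))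
    {a b : ℝ} (hab : a ≤ b) :
    (V b : ℝ) - V a ≤ V (m * b) - V (m * a) := by
  have hm0 : (0 : ℝ) < m := by exact_mod_cast hm
  have hab' : (m : ℝ) * a ≤ m * b := mul_le_mul_of_nonneg_left hab hm0.le
  have e1 : (V b : ℝ) - V a = ((S b \ S a).ncard : ℝ) := by
    have := Set.ncard_sdiff_add_ncard_of_subset (S_mono hab) (S_finite b)
    rw [V_eq, V_eq, ← this]
    push_cast
    ring
  have e2 : (V (m * b) : ℝ) - V (m * a) = ((S (m * b) \ S (m * a)).ncard : ℝ) := by
    have := Set.ncard_sdiff_add_ncard_of_subset (S_mono hab') (S_finite _)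
    rw [V_eq, V_eq, ← this]
    push_cast
    ring
  rw [e1, e2]
  have hinj : Set.InjOn (fun v : ℕ => m * v) (S b \ S a) := by
    intro v _ w _ h
    exact Nat.eq_of_mul_eq_mul_left (by omega) h
  have : (S b \ S a).ncard ≤ (S (m * b) \ S (m * a)).ncard := by
    rw [← hinj.ncard_image]
    apply Set.ncard_le_ncard _ ((S_finite _).sdiff)
    rintro w ⟨v, hv, rfl⟩
    refine ⟨⟨hclosed v hv.1.1, ?_⟩, ?_⟩
    · push_cast
      exact mul_le_mul_of_nonneg_left hv.1.2 hm0.le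
    · intro h
      apply hv.2
      refine ⟨hv.1.1, ?_⟩
      have h2 := h.2
      push_cast at h2
      exact le_of_mul_le_mul_left h2 hm0
  exact_mod_cast this

/-- The totient values up to `x` which are twice a totient value. -/
def D (x : ℝ) : Set ℕ := {v : ℕ | IsTotient v ∧ (v : ℝ) ≤ x ∧ ∃ w, IsTotient w ∧ v = 2 * w}

theorem D_eq_image (x : ℝ) : D x = (fun v : ℕ => 2 * v) '' S (x / 2) := by
  ext v
  constructor
  · rintro ⟨_, hv2, w, hw, rfl⟩
    refine ⟨w, ⟨hw, ?_⟩, rfl⟩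
    push_cast at hv2
    linarith
  · rintro ⟨w, ⟨hw, hw2⟩, rfl⟩
    refine ⟨hw.two_mul, ?_, w, hw, rfl⟩
    push_cast
    linarith

theorem ncard_D (x : ℝ) : (D x).ncard = V (x / 2) := by
  rw [D_eq_image, V_eq]
  apply Set.InjOn.ncard_image
  intro a _ b _ h
  simpa using h

theorem D_subset (x : ℝ) : D x ⊆ S x := fun _ hv => ⟨hv.1, hv.2.1⟩

/-- The number of totients in `(x, 2x]` equals the number of totients up to `2x`
which are not twice a totient. -/
theorem ncard_non_doubles (x : ℝ) :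
    ((S (2 * x) \ D (2 * x)).ncard : ℝ) = (V (2 * x) : ℝ) - V x := by
  have h := Set.ncard_sdiff_add_ncard_of_subset (D_subset (2 * x)) (S_finite _)
  rw [ncard_D] at h
  have e : 2 * x / 2 = x := by ring
  rw [e] at h
  rw [V_eq (2 * x), ← h]
  push_cast
  ring

/-- Erdős-Hall at `c = 2` is equivalent to: half the totients are twice a totient. -/
theorem tendsto_two_iff :
    Tendsto (fun x : ℝ => (V (2 * x) : ℝ) / V x) atTop (𝓝 2) ↔
      Tendsto (fun x : ℝ => ((D x).ncard : ℝ) / V x) atTop (𝓝 (1 / 2)) := by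
  have hcomp1 : Tendsto (fun x : ℝ => x / 2) atTop atTop :=
    tendsto_id.atTop_div_const (by norm_num)
  have hcomp2 : Tendsto (fun x : ℝ => 2 * x) atTop atTop :=
    tendsto_id.const_mul_atTop (by norm_num)
  constructor
  · intro h
    have h1 := (h.comp hcomp1).inv₀ (by norm_num)
    have e : (fun x : ℝ => ((D x).ncard : ℝ) / V x) =
        fun x : ℝ => (((fun x : ℝ => (V (2 * x) : ℝ) / V x) ∘ fun x : ℝ => x / 2) x)⁻¹ := by
      ext x
      simp only [Function.comp, ncard_D]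
      have : 2 * (x / 2) = x := by ring
      rw [this, inv_div]
    rw [e, one_div]
    exact h1
  · intro h
    have h1 := (h.comp hcomp2).inv₀ (by norm_num)
    have e : (fun x : ℝ => (V (2 * x) : ℝ) / V x) =
        fun x : ℝ => (((fun x : ℝ => ((D x).ncard : ℝ) / V x) ∘ fun x : ℝ => 2 * x) x)⁻¹ := by
      ext x
      simp only [Function.comp, ncard_D]
      have : 2 * x / 2 = x := by ring
      rw [this, inv_div]
    rw [e]
    have e2 : ((1 / 2 : ℝ))⁻¹ = 2 := by norm_num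
    rw [e2] at h1
    exact h1

end Vale.Agent.Lib.P031
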