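import Mathlib

namespace Vale.Agent.Lib.P031

/-- `v` is a value of Euler's totient function on the positive integers. -/
def IsTotient (v : ℕ) : Prop := ∃ n : ℕ, 1 ≤ n ∧ Nat.totient n = v

/-- `V x` is the number of totient values `v ≤ x`, for real `x`. -/
noncomputable def V (x : ℝ) : ℕ := Set.ncard {v : ℕ | IsTotient v ∧ (v : ℝ) ≤ x}

end Vale.Agent.Lib.P031
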