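import Vale.Agent.Lib.P031.Basic

namespace Vale.Agent.Lib.P031

open Filter Topology Real

/-- Chebyshev-type lower bound for `V`: eventually `y / (2 log y) ≤ V y`. -/
theorem eventually_V_ge : ∀ᶠ y : ℝ in atTop, y / (2 * Real.log y) ≤ (V y : ℝ) := by
  have hlog : (fun y : ℝ => Real.log y) =o[atTop] (fun y : ℝ => y) := Real.isLittleO_log_id_atTop
  have hsmall : ∀ᶠ y : ℝ in atTop, Real.log y ≤ (1 / 100) * y := by
    have := hlog.bound (show (0 : ℝ) < 1 / 100 by norm_num)
    filter_upwards [this, eventually_gt_atTop 1] with y hy hy1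
    rw [Real.norm_of_nonneg (Real.log_nonneg hy1.le), Real.norm_of_nonneg (by linarith)] at hy
    exact hy
  filter_upwards [hsmall, eventually_ge_atTop 10000] with y hy hy1
  have hy1' : (1 : ℝ) < y := by linarith
  have hlogpos : 0 < Real.log y := Real.log_pos hy1'
  have h1 := Chebyshev.pi_ge' hy1'
  have h2 : (Nat.primeCounting ⌊y⌋₊ : ℝ) ≤ V y := by exact_mod_cast V_ge_primeCounting y
  refine le_trans ?_ (h1.trans h2)
  rw [div_le_div_iff₀ (by positivity) hlogpos]
  have hl2 : (0.69 : ℝ) < Real.log 2 := by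
    have := Real.log_two_gt_d9
    linarith
  have hl3 : Real.log (y + 2) ≤ Real.log y + 1 := by
    have hle : y + 2 ≤ y * Real.exp 1 := by
      have : (2 : ℝ) ≤ Real.exp 1 := by
        have := Real.add_one_le_exp (1 : ℝ)
        linarith
      nlinarith
    calc Real.log (y + 2) ≤ Real.log (y * Real.exp 1) :=
          Real.log_le_log (by linarith) hle
      _ = Real.log y + 1 := by
          rw [Real.log_mul (by linarith) (Real.exp_ne_zero 1), Real.log_exp]
  have hmain : y / 2 ≤ (y - 1) * Real.log 2 - Real.log (y + 2) := by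
    have : (y - 1) * 0.69 ≤ (y - 1) * Real.log 2 :=
      mul_le_mul_of_nonneg_left hl2.le (by linarith)
    nlinarith
  calc y * Real.log y = (y / 2) * (2 * Real.log y) / 1 := by ring
    _ ≤ ((y - 1) * Real.log 2 - Real.log (y + 2)) * (2 * Real.log y) / 1 := by
        apply div_le_div_of_nonneg_right _ (by norm_num)
        exact mul_le_mul_of_nonneg_right hmain (by positivity)
    _ = _ := by ring

theorem tendsto_log_V_div_log :
    Tendsto (fun y : ℝ => Real.log (V y) / Real.log y) atTop (𝓝 1) := by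
  have hlogt : Tendsto Real.log atTop atTop := Real.tendsto_log_atTop
  -- the error term tends to zero
  have herr : Tendsto (fun y : ℝ => (Real.log 2 + Real.log (Real.log y)) / Real.log y)
      atTop (𝓝 0) := by
    have h1 : Tendsto (fun t : ℝ => (Real.log 2 + Real.log t) / t) atTop (𝓝 0) := by
      have ha : Tendsto (fun t : ℝ => Real.log 2 / t) atTop (𝓝 0) :=
        tendsto_const_nhds.div_atTop tendsto_id
      have hb : Tendsto (fun t : ℝ => Real.log t / t) atTop (𝓝 0) := by
        have := Real.isLittleO_log_id_atTop.tendsto_div_nhds_zero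
        simpa using this
      have := ha.add hb
      simp only [add_zero] at this
      refine this.congr (fun t => by rw [add_div])
    exact h1.comp hlogt
  have hlower : Tendsto (fun y : ℝ => 1 - (Real.log 2 + Real.log (Real.log y)) / Real.log y)
      atTop (𝓝 1) := by
    simpa using tendsto_const_nhds.sub herr
  refine tendsto_of_tendsto_of_tendsto_of_le_of_le' hlower tendsto_const_nhds ?_ ?_
  · filter_upwards [eventually_V_ge, eventually_gt_atTop (Real.exp 1)] with y hy hy2
    have hy1 : 1 < y := lt_trans (by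
      have := Real.add_one_le_exp (1 : ℝ)
      linarith) hy2
    have hlogpos : 0 < Real.log y := Real.log_pos hy1
    have hy0 : 0 < y := by linarith
    have hq : 0 < y / (2 * Real.log y) := by positivity
    have h := Real.log_le_log hq hy
    have e : Real.log (y / (2 * Real.log y)) =
        Real.log y - (Real.log 2 + Real.log (Real.log y)) := by
      rw [Real.log_div hy0.ne' (by positivity), Real.log_mul (by norm_num) hlogpos.ne']
    rw [e] at h
    rw [le_div_iff₀ hlogpos]
    have : (1 - (Real.log 2 + Real.log (Real.log y)) / Real.log y) * Real.log y =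
        Real.log y - (Real.log 2 + Real.log (Real.log y)) := by
      field_simp
    rw [this]
    exact h
  · filter_upwards [eventually_gt_atTop 1] with y hy1
    have hlogpos : 0 < Real.log y := Real.log_pos hy1
    rw [div_le_one hlogpos]
    have hV : (0 : ℝ) < V y := by exact_mod_cast V_pos hy1.le
    exact Real.log_le_log hV (V_le y (by linarith))

/-- Along every geometric progression the geometric mean of the ratios tends to `c`. -/
theorem tendsto_geom_mean {c x : ℝ} (hc : 1 < c) (hx : 1 ≤ x) :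
    Tendsto (fun K : ℕ => (V (c ^ K * x) : ℝ) ^ ((1 : ℝ) / K)) atTop (𝓝 c) := by
  have hc0 : 0 < c := by linarith
  have hlc : 0 < Real.log c := Real.log_pos hc
  have hy : Tendsto (fun K : ℕ => c ^ K * x) atTop atTop :=
    (tendsto_pow_atTop_atTop_of_one_lt hc).atTop_mul_const (by linarith)
  have h1 := tendsto_log_V_div_log.comp hy
  have hlogy : ∀ K : ℕ, Real.log (c ^ K * x) = K * Real.log c + Real.log x := by
    intro K
    rw [Real.log_mul (by positivity) (by linarith), Real.log_pow]
  have h2 : Tendsto (fun K : ℕ => Real.log (c ^ K * x) / K) atTop (𝓝 (Real.log c)) := by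
    have hd : Tendsto (fun K : ℕ => Real.log c + Real.log x / K) atTop (𝓝 (Real.log c + 0)) :=
      tendsto_const_nhds.add
        (tendsto_const_nhds.div_atTop tendsto_natCast_atTop_atTop)
    rw [add_zero] at hd
    refine hd.congr' ?_
    filter_upwards [eventually_gt_atTop 0] with K hK
    have hK' : (K : ℝ) ≠ 0 := by positivity
    rw [hlogy]
    field_simp
  have h3 : Tendsto (fun K : ℕ => Real.log (V (c ^ K * x)) / K) atTop (𝓝 (1 * Real.log c)) := by
    refine (h1.mul h2).congr' ?_
    have hpos : ∀ᶠ K : ℕ in atTop, 0 < Real.log (c ^ K * x) := by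
      have := Real.tendsto_log_atTop.comp hy
      exact this.eventually_gt_atTop 0
    filter_upwards [hpos] with K hK
    simp only [Function.comp]
    field_simp
  rw [one_mul] at h3
  have h4 : Tendsto (fun K : ℕ => Real.exp (Real.log (V (c ^ K * x)) / K)) atTop
      (𝓝 (Real.exp (Real.log c))) := (Real.continuous_exp.tendsto _).comp h3
  rw [Real.exp_log hc0] at h4
  refine h4.congr (fun K => ?_)
  have hge : (1 : ℝ) ≤ c ^ K * x := by
    have : (1 : ℝ) ≤ c ^ K := one_le_pow₀ hc.le
    nlinarith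
  have hV : (0 : ℝ) < V (c ^ K * x) := by exact_mod_cast V_pos hge
  rw [Real.rpow_def_of_pos hV]
  congr 1
  ring

theorem tendsto_rpow_one_div_nat {a : ℝ} (ha : 0 < a) :
    Tendsto (fun K : ℕ => a ^ ((1 : ℝ) / K)) atTop (𝓝 1) := by
  have h : Tendsto (fun K : ℕ => (1 : ℝ) / K) atTop (𝓝 0) :=
    tendsto_one_div_atTop_nhds_zero_nat
  have hc : ContinuousAt (fun y : ℝ => a ^ y) 0 :=
    Real.continuousAt_const_rpow ha.ne'
  have := hc.tendsto.comp h
  rw [Real.rpow_zero] at this
  exact this

theorem frequently_lower {c ε : ℝ} (hc : 1 < c) (hε : 0 < ε) :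
    ∃ᶠ x : ℝ in atTop, c - ε < (V (c * x) : ℝ) / V x := by
  by_contra hcon
  rw [not_frequently] at hcon
  obtain ⟨x₀, hx₀⟩ := eventually_atTop.1 (hcon.and (eventually_ge_atTop 1))
  have hx₀1 : 1 ≤ x₀ := (hx₀ x₀ le_rfl).2
  have hc0 : 0 < c := by linarith
  have hstep : ∀ x ≥ x₀, (V (c * x) : ℝ) ≤ (c - ε) * V x := by
    intro x hx
    have h := (hx₀ x hx).1
    have hx1 : 1 ≤ x := hx₀1.trans hx
    have hV : (0 : ℝ) < V x := by exact_mod_cast V_pos hx1
    rw [not_lt, div_le_iff₀ hV] at h
    exact h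
  have hce : 0 < c - ε := by
    have hV : (0 : ℝ) < V x₀ := by exact_mod_cast V_pos hx₀1
    have hx1 : (1 : ℝ) ≤ c * x₀ := by nlinarith
    have hV2 : (0 : ℝ) < V (c * x₀) := by exact_mod_cast V_pos hx1
    by_contra hneg
    have := hstep x₀ le_rfl
    nlinarith
  have hgeK : ∀ K : ℕ, x₀ ≤ c ^ K * x₀ := by
    intro K
    have : (1 : ℝ) ≤ c ^ K := one_le_pow₀ hc.le
    nlinarith
  have hind : ∀ K : ℕ, (V (c ^ K * x₀) : ℝ) ≤ (c - ε) ^ K * V x₀ := by
    intro K
    induction K with
    | zero => simp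
    | succ K ih =>
      have e : c ^ (K + 1) * x₀ = c * (c ^ K * x₀) := by ring
      rw [e]
      calc (V (c * (c ^ K * x₀)) : ℝ) ≤ (c - ε) * V (c ^ K * x₀) := hstep _ (hgeK K)
        _ ≤ (c - ε) * ((c - ε) ^ K * V x₀) := mul_le_mul_of_nonneg_left ih hce.le
        _ = (c - ε) ^ (K + 1) * V x₀ := by ring
  have hV : (0 : ℝ) < V x₀ := by exact_mod_cast V_pos hx₀1
  have hupper : Tendsto (fun K : ℕ => (c - ε) * (V x₀ : ℝ) ^ ((1 : ℝ) / K)) atTop
      (𝓝 ((c - ε) * 1)) := tendsto_const_nhds.mul (tendsto_rpow_one_div_nat hV)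
  rw [mul_one] at hupper
  have hle : c ≤ c - ε := by
    refine le_of_tendsto_of_tendsto (tendsto_geom_mean hc hx₀1) hupper ?_
    filter_upwards [eventually_gt_atTop 0] with K hK
    have hK' : (0 : ℝ) < K := by exact_mod_cast hK
    have h1 : (0 : ℝ) ≤ V (c ^ K * x₀) := Nat.cast_nonneg _
    have h2 := Real.rpow_le_rpow h1 (hind K) (show (0 : ℝ) ≤ (1 : ℝ) / K by positivity)
    refine h2.trans (le_of_eq ?_)
    rw [Real.mul_rpow (by positivity) hV.le, ← Real.rpow_natCast, ← Real.rpow_mul hce.le]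
    have : (K : ℝ) * (1 / K) = 1 := by field_simp
    rw [this, Real.rpow_one]
  linarith

theorem frequently_upper {c ε : ℝ} (hc : 1 < c) (hε : 0 < ε) :
    ∃ᶠ x : ℝ in atTop, (V (c * x) : ℝ) / V x < c + ε := by
  by_contra hcon
  rw [not_frequently] at hcon
  obtain ⟨x₀, hx₀⟩ := eventually_atTop.1 (hcon.and (eventually_ge_atTop 1))
  have hx₀1 : 1 ≤ x₀ := (hx₀ x₀ le_rfl).2
  have hc0 : 0 < c := by linarith
  have hce : 0 < c + ε := by linarith
  have hstep : ∀ x ≥ x₀, (c + ε) * V x ≤ (V (c * x) : ℝ) := by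
    intro x hx
    have h := (hx₀ x hx).1
    have hx1 : 1 ≤ x := hx₀1.trans hx
    have hV : (0 : ℝ) < V x := by exact_mod_cast V_pos hx1
    rw [not_lt, le_div_iff₀ hV] at h
    exact h
  have hgeK : ∀ K : ℕ, x₀ ≤ c ^ K * x₀ := by
    intro K
    have : (1 : ℝ) ≤ c ^ K := one_le_pow₀ hc.le
    nlinarith
  have hind : ∀ K : ℕ, (c + ε) ^ K * V x₀ ≤ (V (c ^ K * x₀) : ℝ) := by
    intro K
    induction K with
    | zero => simp
    | succ K ih =>
      have e : c ^ (K + 1) * x₀ = c * (c ^ K * x₀) := by ring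
      rw [e]
      calc (c + ε) ^ (K + 1) * V x₀ = (c + ε) * ((c + ε) ^ K * V x₀) := by ring
        _ ≤ (c + ε) * V (c ^ K * x₀) := mul_le_mul_of_nonneg_left ih hce.le
        _ ≤ (V (c * (c ^ K * x₀)) : ℝ) := hstep _ (hgeK K)
  have hV : (0 : ℝ) < V x₀ := by exact_mod_cast V_pos hx₀1
  have hlower : Tendsto (fun K : ℕ => (c + ε) * (V x₀ : ℝ) ^ ((1 : ℝ) / K)) atTop
      (𝓝 ((c + ε) * 1)) := tendsto_const_nhds.mul (tendsto_rpow_one_div_nat hV)
  rw [mul_one] at hlower
  have hle : c + ε ≤ c := by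
    refine le_of_tendsto_of_tendsto hlower (tendsto_geom_mean hc hx₀1) ?_
    filter_upwards [eventually_gt_atTop 0] with K hK
    have hK' : (0 : ℝ) < K := by exact_mod_cast hK
    have h2 := Real.rpow_le_rpow (by positivity) (hind K) (show (0 : ℝ) ≤ (1 : ℝ) / K by positivity)
    refine le_trans (le_of_eq ?_) h2
    rw [Real.mul_rpow (by positivity) hV.le, ← Real.rpow_natCast, ← Real.rpow_mul hce.le]
    have : (K : ℝ) * (1 / K) = 1 := by field_simp
    rw [this, Real.rpow_one]
  linarith

end Vale.Agent.Lib.P031
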