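import Vale.Agent.Lib.P031.Growth

namespace Vale.Agent.Lib.P031

open Filter Topology

/-- The totient values up to `x` which are `m` times a totient value. -/
def Dm (m : ℕ) (x : ℝ) : Set ℕ := {v : ℕ | IsTotient v ∧ (v : ℝ) ≤ x ∧ ∃ w, IsTotient w ∧ v = m * w}

theorem IsTotient.six_mul {v : ℕ} (hv : IsTotient v) : IsTotient (6 * v) := by
  have := hv.two_mul_three_pow_mul 1
  simpa using this

theorem ncard_Dm {m : ℕ} (hm : 1 ≤ m) (hclosed : ∀ v, IsTotient v → IsTotient (m * v)) (x : ℝ) :
    (Dm m x).ncard = V (x / m) := by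
  have hm0 : (0 : ℝ) < m := by exact_mod_cast hm
  have e : Dm m x = (fun v : ℕ => m * v) '' S (x / m) := by
    ext v
    constructor
    · rintro ⟨_, hv2, w, hw, rfl⟩
      refine ⟨w, ⟨hw, ?_⟩, rfl⟩
      push_cast at hv2
      rw [le_div_iff₀ hm0]
      linarith
    · rintro ⟨w, ⟨hw, hw2⟩, rfl⟩
      refine ⟨hclosed w hw, ?_, w, hw, rfl⟩
      push_cast
      rw [le_div_iff₀ hm0] at hw2
      linarith
  rw [e, V_eq]
  apply Set.InjOn.ncard_image
  intro a _ b _ h
  exact Nat.eq_of_mul_eq_mul_left (by omega) h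

/-- The ratio `V (c x) / V x`. -/
noncomputable def ratio (c x : ℝ) : ℝ := (V (c * x) : ℝ) / V x

/-- Those real `t` with `V (e^t x) / V x → e^t`. -/
def goodExp : AddSubgroup ℝ where
  carrier := {t : ℝ | Tendsto (fun x : ℝ => ratio (Real.exp t) x) atTop (𝓝 (Real.exp t))}
  zero_mem' := by
    simp only [Set.mem_ofPred_eq, Real.exp_zero]
    apply tendsto_const_nhds.congr'
    filter_upwards [eventually_ge_atTop 1] with x hx
    have hV : (0 : ℝ) < V x := by exact_mod_cast V_pos hx
    simp [ratio, hV.ne']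
  add_mem' := by
    intro s t hs ht
    simp only [Set.mem_ofPred_eq] at hs ht ⊢
    have hscale : Tendsto (fun x : ℝ => Real.exp t * x) atTop atTop :=
      tendsto_id.const_mul_atTop (Real.exp_pos t)
    have h1 := (hs.comp hscale).mul ht
    rw [Real.exp_add]
    refine h1.congr' ?_
    filter_upwards [eventually_ge_atTop (1 / Real.exp t)] with x hx
    have hx1 : 1 ≤ Real.exp t * x := by
      rw [div_le_iff₀ (Real.exp_pos t)] at hx
      linarith
    have hV : (0 : ℝ) < V (Real.exp t * x) := by exact_mod_cast V_pos hx1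
    simp only [Function.comp, ratio]
    have e : Real.exp s * (Real.exp t * x) = Real.exp s * Real.exp t * x := by ring
    rw [e]
    field_simp
  neg_mem' := by
    intro t ht
    simp only [Set.mem_ofPred_eq] at ht ⊢
    have hscale : Tendsto (fun x : ℝ => Real.exp (-t) * x) atTop atTop :=
      tendsto_id.const_mul_atTop (Real.exp_pos _)
    have h1 := (ht.comp hscale).inv₀ (Real.exp_pos t).ne'
    rw [Real.exp_neg]
    rw [Real.exp_neg] at hscale
    refine h1.congr' ?_
    filter_upwards with x
    simp only [Function.comp, ratio]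
    rw [inv_div, Real.exp_neg]
    have e : Real.exp t * ((Real.exp t)⁻¹ * x) = x := by
      field_simp
    rw [e]

theorem irrational_log_two_div_log_six : Irrational (Real.log 2 / Real.log 6) := by
  rintro ⟨r, hr⟩
  have hl2 : 0 < Real.log 2 := Real.log_pos (by norm_num)
  have hl6 : 0 < Real.log 6 := Real.log_pos (by norm_num)
  have hrpos : (0 : ℝ) < r := by rw [hr]; positivity
  have hrpos' : 0 < r := by exact_mod_cast hrpos
  have hnum : 0 < r.num := Rat.num_pos.2 hrpos'
  have hden : 0 < r.den := r.den_pos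
  have h1 : (r.den : ℝ) * Real.log 2 = (r.num : ℝ) * Real.log 6 := by
    have hrr : (r : ℝ) = (r.num : ℝ) / (r.den : ℝ) := by
      exact_mod_cast (Rat.num_div_den r).symm
    have hden' : (r.den : ℝ) ≠ 0 := by positivity
    have : Real.log 2 = (r : ℝ) * Real.log 6 := by
      rw [hr]
      field_simp
    rw [this, hrr]
    field_simp
  obtain ⟨n, hn⟩ := Int.eq_ofNat_of_zero_le hnum.le
  have h2 : ((2 : ℝ) ^ r.den) = (6 : ℝ) ^ n := by
    apply Real.log_injOn_pos
    · exact Set.mem_Ioi.2 (by positivity)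
    · exact Set.mem_Ioi.2 (by positivity)
    · rw [Real.log_pow, Real.log_pow, h1, hn]
      simp
  have h3 : (2 : ℕ) ^ r.den = 6 ^ n := by exact_mod_cast h2
  have hn0 : n ≠ 0 := by
    rintro rfl
    simp only [Nat.cast_zero] at hn
    omega
  have h4 : 3 ∣ (2 : ℕ) ^ r.den := by
    rw [h3]
    exact dvd_pow (by norm_num) hn0
  have h5 := Nat.Prime.dvd_of_dvd_pow Nat.prime_three h4
  omega

/-- If the limit holds for `c = 2` and `c = 6`, it holds for every `c > 0`. -/
theorem tendsto_all_of_two_six
    (h2 : Tendsto (fun x : ℝ => ratio 2 x) atTop (𝓝 2))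
    (h6 : Tendsto (fun x : ℝ => ratio 6 x) atTop (𝓝 6)) {c : ℝ} (hc : 0 < c) :
    Tendsto (fun x : ℝ => ratio c x) atTop (𝓝 c) := by
  have hmem2 : Real.log 2 ∈ goodExp := by
    change Tendsto _ _ _
    rw [Real.exp_log (by norm_num)]
    exact h2
  have hmem6 : Real.log 6 ∈ goodExp := by
    change Tendsto _ _ _
    rw [Real.exp_log (by norm_num)]
    exact h6
  have hle : AddSubgroup.closure {Real.log 2, Real.log 6} ≤ goodExp := by
    rw [AddSubgroup.closure_le]
    intro t ht
    rcases ht with rfl | rfl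
    · exact hmem2
    · exact hmem6
  have hdense : Dense (goodExp : Set ℝ) :=
    (dense_addSubgroupClosure_pair_iff.2 irrational_log_two_div_log_six).mono hle
  have key_lower : ∀ l < c, ∀ᶠ x : ℝ in atTop, l < ratio c x := by
    intro l hl
    have hl' : Real.log (max l (c / 2)) < Real.log c := by
      apply Real.log_lt_log
      · exact lt_max_of_lt_right (by positivity)
      · exact max_lt hl (by linarith)
    obtain ⟨t, ht, htlo, hthi⟩ := hdense.exists_between hl'
    have hexp_lo : l < Real.exp t := by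
      have hpos : 0 < max l (c / 2) := lt_max_of_lt_right (by positivity)
      have := Real.exp_lt_exp.2 htlo
      rw [Real.exp_log hpos] at this
      exact lt_of_le_of_lt (le_max_left _ _) this
    have hexp_hi : Real.exp t < c := by
      have := Real.exp_lt_exp.2 hthi
      rwa [Real.exp_log hc] at this
    have ht' : Tendsto (fun x : ℝ => ratio (Real.exp t) x) atTop (𝓝 (Real.exp t)) := ht
    filter_upwards [ht'.eventually (lt_mem_nhds hexp_lo), eventually_ge_atTop 1] with x hx hx1
    refine lt_of_lt_of_le hx ?_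
    have hV : (0 : ℝ) ≤ V x := Nat.cast_nonneg _
    apply div_le_div_of_nonneg_right _ hV
    have hmono : (V (Real.exp t * x) : ℝ) ≤ V (c * x) := by
      have : V (Real.exp t * x) ≤ V (c * x) :=
        V_mono (mul_le_mul_of_nonneg_right hexp_hi.le (by linarith))
      exact_mod_cast this
    exact hmono
  have key_upper : ∀ u > c, ∀ᶠ x : ℝ in atTop, ratio c x < u := by
    intro u hu
    have hl' : Real.log c < Real.log u := Real.log_lt_log hc hu
    obtain ⟨t, ht, htlo, hthi⟩ := hdense.exists_between hl'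
    have hexp_lo : c < Real.exp t := by
      have := Real.exp_lt_exp.2 htlo
      rwa [Real.exp_log hc] at this
    have hexp_hi : Real.exp t < u := by
      have := Real.exp_lt_exp.2 hthi
      rwa [Real.exp_log (hc.trans hu)] at this
    have ht' : Tendsto (fun x : ℝ => ratio (Real.exp t) x) atTop (𝓝 (Real.exp t)) := ht
    filter_upwards [ht'.eventually (gt_mem_nhds hexp_hi), eventually_ge_atTop 1] with x hx hx1
    refine lt_of_le_of_lt ?_ hx
    have hV : (0 : ℝ) ≤ V x := Nat.cast_nonneg _
    apply div_le_div_of_nonneg_right _ hV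
    have hmono : (V (c * x) : ℝ) ≤ V (Real.exp t * x) := by
      have : V (c * x) ≤ V (Real.exp t * x) :=
        V_mono (mul_le_mul_of_nonneg_right hexp_lo.le (by linarith))
      exact_mod_cast this
    exact hmono
  exact tendsto_order.2 ⟨key_lower, key_upper⟩

/-- `V (m x) / V x → m` iff the totients which are `m` times a totient have density `1 / m`. -/
theorem tendsto_mul_iff {m : ℕ} (hm : 1 ≤ m) (hclosed : ∀ v, IsTotient v → IsTotient (m * v)) :
    Tendsto (fun x : ℝ => ratio (m : ℝ) x) atTop (𝓝 (m : ℝ)) ↔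
      Tendsto (fun x : ℝ => ((Dm m x).ncard : ℝ) / V x) atTop (𝓝 (1 / (m : ℝ))) := by
  have hm0 : (0 : ℝ) < m := by exact_mod_cast hm
  have hcomp1 : Tendsto (fun x : ℝ => x / m) atTop atTop :=
    tendsto_id.atTop_div_const hm0
  have hcomp2 : Tendsto (fun x : ℝ => (m : ℝ) * x) atTop atTop :=
    tendsto_id.const_mul_atTop hm0
  constructor
  · intro h
    have h1 := (h.comp hcomp1).inv₀ hm0.ne'
    have e : (fun x : ℝ => ((Dm m x).ncard : ℝ) / V x) =
        fun x : ℝ => (((fun x : ℝ => ratio (m : ℝ) x) ∘ fun x : ℝ => x / m) x)⁻¹ := by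
      ext x
      simp only [Function.comp, ncard_Dm hm hclosed, ratio]
      have : (m : ℝ) * (x / m) = x := by field_simp
      rw [this, inv_div]
    rw [e, one_div]
    exact h1
  · intro h
    have hne : (1 / (m : ℝ)) ≠ 0 := by positivity
    have h1 := (h.comp hcomp2).inv₀ hne
    have e : (fun x : ℝ => ratio (m : ℝ) x) =
        fun x : ℝ => (((fun x : ℝ => ((Dm m x).ncard : ℝ) / V x) ∘ fun x : ℝ => (m : ℝ) * x) x)⁻¹ := by
      ext x
      simp only [Function.comp, ncard_Dm hm hclosed, ratio]
      have : (m : ℝ) * x / m = x := by field_simp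
      rw [this, inv_div]
    rw [e]
    have e2 : (1 / (m : ℝ))⁻¹ = m := by field_simp
    rw [e2] at h1
    exact h1

/-- Erdős-Hall is equivalent to two density statements. -/
theorem erdos_hall_iff :
    (∀ c : ℝ, 1 < c → Tendsto (fun x : ℝ => (V (c * x) : ℝ) / V x) atTop (𝓝 c)) ↔
      (Tendsto (fun x : ℝ => ((Dm 2 x).ncard : ℝ) / V x) atTop (𝓝 (1 / 2)) ∧
       Tendsto (fun x : ℝ => ((Dm 6 x).ncard : ℝ) / V x) atTop (𝓝 (1 / 6))) := by
  have h2 := tendsto_mul_iff (m := 2) (by norm_num) (fun v hv => hv.two_mul)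
  have h6 := tendsto_mul_iff (m := 6) (by norm_num) (fun v hv => hv.six_mul)
  simp only [Nat.cast_ofNat] at h2 h6
  constructor
  · intro h
    exact ⟨h2.1 (h 2 (by norm_num)), h6.1 (h 6 (by norm_num))⟩
  · rintro ⟨a, b⟩ c hc
    exact tendsto_all_of_two_six (h2.2 a) (h6.2 b) (by linarith)

end Vale.Agent.Lib.P031
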